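import Mathlib.AlgebraicTopology.SimplicialSet.Subdivision

/-!
# Monotone maps between posets of nonempty subsets of `[n]`

All the maps used to pair the simplices of `Ex X` preserve unions, hence are given by relations.
-/

open CategoryTheory
open scoped Simplicial

namespace Vale.Agent.P213.Subdiv

/-- Nonempty subsets of `[n]`, as in Mathlib's subdivision. -/
abbrev Ch (n : ℕ) : Type := PartialOrder.NonemptyFiniteChains (ULift.{0} (Fin (n + 1)))

variable {a b c n : ℕ}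

/-- `i` belongs to `S`. -/
def Mem (S : Ch n) (i : Fin (n + 1)) : Prop := ULift.up i ∈ S.finset

lemma ch_ext {S T : Ch n} (h : ∀ i, Mem S i ↔ Mem T i) : S = T :=
  PartialOrder.NonemptyFiniteChains.ext (Finset.ext fun ⟨i⟩ => h i)

lemma exists_mem (S : Ch n) : ∃ i, Mem S i :=
  let ⟨⟨i⟩, hi⟩ := S.nonempty
  ⟨i, hi⟩

open scoped Classical in
/-- The monotone map given by a total relation. -/
noncomputable def relHom (r : ℕ → ℕ → Prop) (h : ∀ j : Fin (a + 1), ∃ i : Fin (b + 1), r j i) :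
    Ch a →o Ch b where
  toFun S :=
    { finset := Finset.univ.filter fun i => ∃ j ∈ S.finset, r j.down.1 i.down.1
      nonempty := by
        obtain ⟨j, hj⟩ := exists_mem S
        obtain ⟨i, hi⟩ := h j
        exact ⟨⟨i⟩, Finset.mem_filter.2 ⟨Finset.mem_univ _, ⟨j⟩, hj, hi⟩⟩
      comparable := fun x y => le_total x.1 y.1 }
  monotone' S T hST i hi := by
    simp only [Finset.mem_filter] at hi ⊢
    obtain ⟨h1, j, hj, hji⟩ := hi
    exact ⟨h1, j, hST hj, hji⟩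

@[simp]
lemma mem_relHom {r : ℕ → ℕ → Prop} {h : ∀ j : Fin (a + 1), ∃ i : Fin (b + 1), r j i}
    (S : Ch a) (i : Fin (b + 1)) : Mem (relHom r h S) i ↔ ∃ j, Mem S j ∧ r j i := by
  classical
  unfold relHom Mem
  show ULift.up i ∈ (Finset.univ.filter fun i' : ULift.{0} (Fin (b + 1)) =>
    ∃ j ∈ S.finset, r j.down.1 i'.down.1) ↔ _
  simp [ULift.exists]

lemma relHom_ext {f g : Ch a →o Ch b} {r s : ℕ → ℕ → Prop}
    (hf : ∀ S i, Mem (f S) i ↔ ∃ j, Mem S j ∧ r j i)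
    (hg : ∀ S i, Mem (g S) i ↔ ∃ j, Mem S j ∧ s j i)
    (h : ∀ (j : Fin (a + 1)) (i : Fin (b + 1)), r j i ↔ s j i) : f = g :=
  OrderHom.ext _ _ (funext fun S => ch_ext fun i => by
    rw [hf, hg]
    exact exists_congr fun j => and_congr_right fun _ => h j i)

/-- The map induced by a map of the simplex category. -/
noncomputable def chMap (φ : ⦋a⦌ ⟶ ⦋b⦌) : Ch a →o Ch b :=
  (PartOrd.nonemptyFiniteChainsFunctor.map (SimplexCategory.toPartOrd.{0}.map φ)).hom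

@[simp]
lemma mem_chMap (φ : ⦋a⦌ ⟶ ⦋b⦌) (S : Ch a) (i : Fin (b + 1)) :
    Mem (chMap φ S) i ↔ ∃ j, Mem S j ∧ (φ j : Fin (b + 1)) = i := by
  refine (PartialOrder.NonemptyFiniteChains.mem_map_iff S _ _).trans ?_
  constructor
  · rintro ⟨⟨j⟩, hj, e⟩
    exact ⟨j, hj, congrArg ULift.down e⟩
  · rintro ⟨j, hj, rfl⟩
    exact ⟨⟨j⟩, hj, rfl⟩

/-- Fill below the largest element, if this exceeds `k`. -/
noncomputable def R (n k : ℕ) : Ch n →o Ch n :=
  relHom (fun j i => i = j ∨ (k < j ∧ i ≤ j)) fun j => ⟨j, Or.inl rfl⟩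

/-- The filling `(n+1)`-simplex: the new vertex `k+1` goes to `[0,…,k]`. -/
noncomputable def J (n k : ℕ) : Ch (n + 1) →o Ch n :=
  relHom (fun j i => (i = min j n ∧ j ≤ k) ∨ (k < j ∧ i < j)) fun j => by
    by_cases h : j.1 ≤ k
    · exact ⟨⟨min j n, by omega⟩, Or.inl ⟨rfl, h⟩⟩
    · exact ⟨0, Or.inr ⟨by omega, by simp only [Fin.val_zero]; omega⟩⟩

/-- The composite of `J n k` with the face omitting `k+1`. -/
noncomputable def E (n k : ℕ) : Ch n →o Ch n :=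
  relHom (fun j i => (i = j ∧ j ≤ k) ∨ (k < j ∧ i ≤ j ∧ i ≠ k + 1)) fun j => by
    by_cases h : j.1 ≤ k
    · exact ⟨j, Or.inl ⟨rfl, h⟩⟩
    · exact ⟨0, Or.inr ⟨by omega, by simp, by simp⟩⟩

lemma mem_R (k : ℕ) (S : Ch n) (i : Fin (n + 1)) :
    Mem (R n k S) i ↔ ∃ j, Mem S j ∧ (i.1 = j.1 ∨ (k < j.1 ∧ i.1 ≤ j.1)) :=
  mem_relHom S i

lemma mem_J (k : ℕ) (S : Ch (n + 1)) (i : Fin (n + 1)) :
    Mem (J n k S) i ↔ ∃ j, Mem S j ∧ ((i.1 = min j.1 n ∧ j.1 ≤ k) ∨ (k < j.1 ∧ i.1 < j.1)) :=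
  mem_relHom S i

lemma mem_E (k : ℕ) (S : Ch n) (i : Fin (n + 1)) :
    Mem (E n k S) i ↔
      ∃ j, Mem S j ∧ ((i.1 = j.1 ∧ j.1 ≤ k) ∨ (k < j.1 ∧ i.1 ≤ j.1 ∧ i.1 ≠ k + 1)) :=
  mem_relHom S i

lemma mem_comp {f : Ch a →o Ch b} {g : Ch b →o Ch c} {r : Fin (a + 1) → Fin (b + 1) → Prop}
    {s : Fin (b + 1) → Fin (c + 1) → Prop}
    (hf : ∀ S i, Mem (f S) i ↔ ∃ j, Mem S j ∧ r j i)
    (hg : ∀ S i, Mem (g S) i ↔ ∃ j, Mem S j ∧ s j i) (S : Ch a) (i : Fin (c + 1)) :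
    Mem (g.comp f S) i ↔ ∃ j, Mem S j ∧ ∃ m, r j m ∧ s m i := by
  show Mem (g (f S)) i ↔ _
  rw [hg]
  constructor
  · rintro ⟨m, hm, h2⟩
    obtain ⟨j, hj, h1⟩ := (hf S m).1 hm
    exact ⟨j, hj, m, h1, h2⟩
  · rintro ⟨j, hj, m, h1, h2⟩
    exact ⟨m, (hf S m).2 ⟨j, hj, h1⟩, h2⟩

lemma hom_ext' {f g : Ch a →o Ch b} {r s : Fin (a + 1) → Fin (b + 1) → Prop}
    (hf : ∀ S i, Mem (f S) i ↔ ∃ j, Mem S j ∧ r j i)
    (hg : ∀ S i, Mem (g S) i ↔ ∃ j, Mem S j ∧ s j i)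
    (h : ∀ j i, r j i ↔ s j i) : f = g :=
  OrderHom.ext _ _ (funext fun S => ch_ext fun i => by
    rw [hf, hg]
    exact exists_congr fun j => and_congr_right fun _ => h j i)

/-- Composing with the map of a morphism on the source side. -/
lemma mem_comp_chMap {g : Ch b →o Ch c} {s : Fin (b + 1) → Fin (c + 1) → Prop}
    (hg : ∀ S i, Mem (g S) i ↔ ∃ j, Mem S j ∧ s j i) (φ : ⦋a⦌ ⟶ ⦋b⦌) (S : Ch a)
    (i : Fin (c + 1)) : Mem (g.comp (chMap φ) S) i ↔ ∃ j, Mem S j ∧ s (φ j) i := by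
  rw [mem_comp (mem_chMap φ) hg]
  exact exists_congr fun j => and_congr_right fun _ =>
    ⟨fun ⟨m, e, h⟩ => e ▸ h, fun h => ⟨_, rfl, h⟩⟩

lemma δ_val (i : Fin (n + 2)) (j : Fin (n + 1)) :
    ((SimplexCategory.δ i) j : Fin (n + 2)).1 = if j.1 < i.1 then j.1 else j.1 + 1 := by
  show (i.succAbove j).1 = _
  unfold Fin.succAbove
  split_ifs <;> simp_all [Fin.lt_def]

lemma σ_val (i : Fin (n + 1)) (j : Fin (n + 2)) :
    ((SimplexCategory.σ i) j : Fin (n + 1)).1 = if j.1 ≤ i.1 then j.1 else j.1 - 1 := by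
  show (i.predAbove j).1 = _
  unfold Fin.predAbove
  split <;> rename_i hlt <;>
    simp only [Fin.lt_def, Fin.val_castSucc, Fin.val_pred, Fin.coe_castPred] at hlt ⊢ <;>
    split_ifs <;> omega

lemma R_last : R n n = OrderHom.id :=
  hom_ext' (mem_R n) (s := fun j i => j = i)
    (fun S i => ⟨fun h => ⟨i, h, rfl⟩, fun ⟨_, hj, e⟩ => e ▸ hj⟩)
    fun j i => by simp only [Fin.ext_iff]; omega

lemma R_comp_R {k l : ℕ} (h : k ≤ l) : (R n k).comp (R n l) = R n k :=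
  hom_ext' (mem_comp (mem_R l) (mem_R k)) (mem_R k) fun j i =>
    ⟨fun ⟨m, hm⟩ => by omega, fun h' => ⟨j, by omega⟩⟩

lemma J_comp_R (k : ℕ) : (J n k).comp (R (n + 1) k) = J n k :=
  hom_ext' (mem_comp (mem_R k) (mem_J k)) (mem_J k) fun j i =>
    ⟨fun ⟨m, hm⟩ => by omega, fun h' => ⟨j, by omega⟩⟩

lemma J_comp_δ_succ {k : ℕ} (hk : k ≤ n) :
    (J n k).comp (chMap (SimplexCategory.δ ⟨k + 1, by omega⟩)) = R n k :=
  hom_ext' (mem_comp_chMap (mem_J k) _) (mem_R k) fun j i => by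
    simp only [δ_val]; split_ifs <;> omega

lemma J_comp_δ_self {k : ℕ} (hk : k ≤ n) (hk' : 1 ≤ k) :
    (J n k).comp (chMap (SimplexCategory.δ ⟨k, by omega⟩)) = R n (k - 1) :=
  hom_ext' (mem_comp_chMap (mem_J k) _) (mem_R (k - 1)) fun j i => by
    simp only [δ_val]; split_ifs <;> omega

lemma R_comp_J {k l : ℕ} (hl : l < k) (hk : k ≤ n) :
    (R n l).comp (J n k) = (J n k).comp (R (n + 1) l) := by
  refine hom_ext' (mem_comp (mem_J k) (mem_R l)) (mem_comp (mem_R l) (mem_J k)) fun j i => ?_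
  constructor
  · rintro ⟨m, hm⟩
    by_cases h : i.1 ≤ k
    · by_cases h' : j.1 ≤ k
      · exact ⟨⟨i.1, by omega⟩, by simp only; omega⟩
      · exact ⟨j, by omega⟩
    · exact ⟨j, by omega⟩
  · rintro ⟨m, hm⟩
    by_cases h : j.1 ≤ k
    · exact ⟨⟨j.1, by omega⟩, by simp only; omega⟩
    · exact ⟨⟨j.1 - 1, by omega⟩, by simp only; omega⟩

lemma R_δ_R {l : ℕ} (i : Fin (n + 2)) (hl : l < i.1) :
    ((R (n + 1) l).comp (chMap (SimplexCategory.δ i))).comp (R n l)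
      = (R (n + 1) l).comp (chMap (SimplexCategory.δ i)) :=
  hom_ext' (mem_comp (mem_R l) (mem_comp_chMap (mem_R l) _)) (mem_comp_chMap (mem_R l) _)
    fun j p => by
      simp only [δ_val]
      exact ⟨fun ⟨m, hm⟩ => by split_ifs at hm ⊢ <;> omega,
        fun h => ⟨j, Or.inl rfl, h⟩⟩

lemma E_eq {k : ℕ} (hk : k ≤ n) :
    E (n + 1) k = (chMap (SimplexCategory.δ ⟨k + 1, by omega⟩)).comp (J n k) := by
  refine hom_ext' (mem_E k) (mem_comp (mem_J k) (mem_chMap _)) fun j i => ?_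
  simp only [Fin.ext_iff, δ_val]
  constructor
  · intro h
    by_cases hi : i.1 ≤ k
    · exact ⟨⟨i.1, by omega⟩, by simp only; omega, by simp only; split_ifs <;> omega⟩
    · exact ⟨⟨i.1 - 1, by omega⟩, by simp only; omega, by simp only; split_ifs <;> omega⟩
  · rintro ⟨m, hm, e⟩
    split_ifs at e <;> omega

lemma σ_comp_J_of_le {k : ℕ} (i : Fin (n + 1)) (h : k ≤ i.1) :
    (chMap (SimplexCategory.σ i)).comp (J (n + 1) k)
      = (J n k).comp (chMap (SimplexCategory.σ i.succ)) := by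
  refine hom_ext' (mem_comp (mem_J k) (mem_chMap _)) (mem_comp_chMap (mem_J k) _) fun j p => ?_
  simp only [Fin.ext_iff, σ_val, Fin.val_succ]
  constructor
  · rintro ⟨m, hm, e⟩
    split_ifs at e ⊢ <;> omega
  · intro hp
    by_cases hj : j.1 ≤ k
    · refine ⟨⟨j.1, by omega⟩, by simp only; omega, ?_⟩
      simp only; split_ifs at hp ⊢ <;> omega
    · by_cases hp' : p.1 ≤ i.1
      · refine ⟨⟨p.1, by omega⟩, ?_, by simp only; split_ifs <;> omega⟩
        simp only; split_ifs at hp <;> omega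
      · refine ⟨⟨p.1 + 1, by omega⟩, ?_, by simp only; split_ifs <;> omega⟩
        simp only; split_ifs at hp <;> omega

lemma σ_comp_J_of_lt {k : ℕ} (i : Fin (n + 1)) (h : i.1 < k) (hk : k ≤ n + 1) :
    (chMap (SimplexCategory.σ i)).comp (J (n + 1) k)
      = (J n (k - 1)).comp (chMap (SimplexCategory.σ ⟨i.1, by omega⟩)) := by
  refine hom_ext' (mem_comp (mem_J k) (mem_chMap _)) (mem_comp_chMap (mem_J (k - 1)) _) fun j p => ?_
  simp only [Fin.ext_iff, σ_val]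
  constructor
  · rintro ⟨m, hm, e⟩
    split_ifs at e ⊢ <;> omega
  · intro hp
    by_cases hj : j.1 ≤ k
    · refine ⟨⟨j.1, by omega⟩, by simp only; omega, ?_⟩
      simp only; split_ifs at hp ⊢ <;> omega
    · by_cases hp' : p.1 ≤ i.1
      · refine ⟨⟨p.1, by omega⟩, ?_, by simp only; split_ifs <;> omega⟩
        simp only; split_ifs at hp <;> omega
      · refine ⟨⟨p.1 + 1, by omega⟩, ?_, by simp only; split_ifs <;> omega⟩
        simp only; split_ifs at hp <;> omega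

lemma J_comp_J {k : ℕ} (hk : k ≤ n) :
    (J n k).comp (J (n + 1) k)
      = (J n k).comp (chMap (SimplexCategory.σ ⟨k + 1, by omega⟩)) := by
  refine hom_ext' (mem_comp (mem_J k) (mem_J k)) (mem_comp_chMap (mem_J k) _) fun j i => ?_
  simp only [σ_val]
  constructor
  · rintro ⟨m, hm⟩
    split_ifs <;> omega
  · intro h
    by_cases hj : j.1 ≤ k
    · exact ⟨⟨j.1, by omega⟩, by simp only; split_ifs at h <;> omega⟩
    · by_cases hj' : j.1 = k + 1
      · exact ⟨⟨i.1, by omega⟩, by simp only; split_ifs at h <;> omega⟩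
      · exact ⟨⟨j.1 - 1, by omega⟩, by simp only; split_ifs at h <;> omega⟩

lemma J_δ_R_of_le {k : ℕ} (i : Fin (n + 2)) (hi : i.1 ≤ k) :
    ((J n k).comp (chMap (SimplexCategory.δ i))).comp (R n (k - 1))
      = (J n k).comp (chMap (SimplexCategory.δ i)) :=
  hom_ext' (mem_comp (mem_R (k - 1)) (mem_comp_chMap (mem_J k) _)) (mem_comp_chMap (mem_J k) _)
    fun j p => by
      simp only [δ_val]
      exact ⟨fun ⟨m, hm⟩ => by split_ifs at hm ⊢ <;> omega,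
        fun h => ⟨j, Or.inl rfl, h⟩⟩

lemma J_δ_R_of_ge {k : ℕ} (i : Fin (n + 2)) (hi : k + 2 ≤ i.1) :
    ((J n k).comp (chMap (SimplexCategory.δ i))).comp (R n k)
      = (J n k).comp (chMap (SimplexCategory.δ i)) :=
  hom_ext' (mem_comp (mem_R k) (mem_comp_chMap (mem_J k) _)) (mem_comp_chMap (mem_J k) _)
    fun j p => by
      simp only [δ_val]
      exact ⟨fun ⟨m, hm⟩ => by split_ifs at hm ⊢ <;> omega,
        fun h => ⟨j, Or.inl rfl, h⟩⟩

lemma J_δ_E {k : ℕ} (i : Fin (n + 2)) (hi : k + 2 ≤ i.1) :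
    ((J n k).comp (chMap (SimplexCategory.δ i))).comp (E n k)
      = (J n k).comp (chMap (SimplexCategory.δ i)) :=
  hom_ext' (mem_comp (mem_E k) (mem_comp_chMap (mem_J k) _)) (mem_comp_chMap (mem_J k) _)
    fun j p => by
      simp only [δ_val]
      refine ⟨fun ⟨m, hm⟩ => by split_ifs at hm ⊢ <;> omega, fun h => ?_⟩
      by_cases hj : j.1 = k + 1
      · exact ⟨p, by split_ifs at h <;> omega, by split_ifs at h ⊢ <;> omega⟩
      · exact ⟨j, by omega, h⟩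

end Vale.Agent.P213.Subdiv
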