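import Vale.Agent.P213.Main.SSetGoals
import Mathlib.AlgebraicTopology.SimplicialSet.NerveNondegenerate
import Mathlib.AlgebraicTopology.SimplicialSet.Presentable

/-!
# `Ex` preserves filtered colimits
-/

open CategoryTheory CategoryTheory.Limits Opposite
open scoped Simplicial

namespace Vale.Agent.P213.Subdiv

/-- The nerve of a finite partial order is a finite simplicial set. -/
lemma finite_nerve (P : Type) [PartialOrder P] [Finite P] : (nerve P).Finite := by
  have : Fintype P := Fintype.ofFinite P
  have : (nerve P).HasDimensionLT (Fintype.card P + 1) := ⟨fun n hn => by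
    refine Set.eq_univ_iff_forall.2 fun s => ?_
    rw [SSet.mem_degenerate_iff_notMem_nonDegenerate]
    intro hs
    have := Fintype.card_le_of_injective _
      ((PartialOrder.mem_nerve_nonDegenerate_iff_injective s).1 hs)
    simp only [Fintype.card_fin] at this
    omega⟩
  refine SSet.finite_of_hasDimensionLT _ (Fintype.card P + 1) fun i _ => ?_
  exact Finite.of_injective (fun s : (nerve P).nonDegenerate i => (s.1 : ComposableArrows P i).obj)
    fun s t h => Subtype.ext
      (CategoryTheory.Functor.ext (fun j => congrFun h j) fun _ _ _ => Subsingleton.elim _ _)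

instance (n : SimplexCategory) : (SimplexCategory.sd.{0}.obj n).Finite :=
  haveI : Finite (PartialOrder.NonemptyFiniteChains (ULift.{0} (Fin (n.len + 1)))) :=
    Finite.of_injective (·.finset) fun _ _ h => PartialOrder.NonemptyFiniteChains.ext h
  finite_nerve (PartialOrder.NonemptyFiniteChains (ULift.{0} (Fin (n.len + 1))))

/-- Evaluating `Ex` is corepresented by a subdivided simplex. -/
noncomputable def exEvalIso (m : SimplexCategoryᵒᵖ) :
    SSet.ex.{0} ⋙ (evaluation _ _).obj m ≅ coyoneda.obj (op (SimplexCategory.sd.{0}.obj m.unop)) :=
  NatIso.ofComponents (fun X => (Equiv.ulift.{0}).toIso) (fun _ => rfl)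

theorem exFilteredGoal : ExFilteredGoal :=
  ⟨fun J _ _ => preservesColimitsOfShape_of_evaluation _ J fun m =>
    have : PreservesFilteredColimitsOfSize.{0, 0}
        (coyoneda.obj (op (SimplexCategory.sd.{0}.obj m.unop))) :=
      isFinitelyPresentable_iff_preservesFilteredColimitsOfSize.1 inferInstance
    preservesColimitsOfShape_of_natIso (exEvalIso m).symm⟩

end Vale.Agent.P213.Subdiv
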