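import Vale.Agent.P213.Ex.Chains
import Mathlib.AlgebraicTopology.SimplicialSet.CategoryWithFibrations

/-!
# The last vertex maps and the natural map `X ⟶ Ex X`
-/

open CategoryTheory Opposite
open scoped Simplicial

namespace Vale.Agent.P213.Subdiv

variable {a b c n : ℕ} {X : SSet.{0}}

/-- The map of subdivided simplices given by a monotone map of subsets. -/
noncomputable def nm (f : Ch a →o Ch b) :
    SimplexCategory.sd.{0}.obj ⦋a⦌ ⟶ SimplexCategory.sd.{0}.obj ⦋b⦌ :=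
  PartOrd.nerveFunctor.map (PartOrd.ofHom f)

lemma nm_comp (g : Ch b →o Ch c) (f : Ch a →o Ch b) : nm (g.comp f) = nm f ≫ nm g :=
  PartOrd.nerveFunctor.map_comp (PartOrd.ofHom f) (PartOrd.ofHom g)

lemma nm_id : nm (OrderHom.id : Ch a →o Ch a) = 𝟙 _ :=
  PartOrd.nerveFunctor.map_id (PartOrd.of (Ch a))

/-- Precomposition of a simplex of `Ex X`. -/
noncomputable def act (f : Ch a →o Ch b) (x : (SSet.ex.obj X) _⦋b⦌) : (SSet.ex.obj X) _⦋a⦌ :=
  ULift.up (nm f ≫ x.down)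

@[simp]
lemma act_act (f : Ch a →o Ch b) (g : Ch b →o Ch c) (x : (SSet.ex.obj X) _⦋c⦌) :
    act f (act g x) = act (g.comp f) x :=
  congrArg ULift.up (by rw [nm_comp, Category.assoc]; rfl)

@[simp]
lemma act_id (x : (SSet.ex.obj X) _⦋a⦌) : act OrderHom.id x = x :=
  congrArg ULift.up ((congrArg (fun t => t ≫ x.down) nm_id).trans (Category.id_comp _))

lemma map_eq_act (φ : ⦋a⦌ ⟶ ⦋b⦌) (x : (SSet.ex.obj X) _⦋b⦌) :
    (SSet.ex.obj X).map φ.op x = act (chMap φ) x := rfl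

lemma δ_eq_act (i : Fin (n + 2)) (x : (SSet.ex.obj X) _⦋n + 1⦌) :
    (SSet.ex.obj X).δ i x = act (chMap (SimplexCategory.δ i)) x := rfl

/-- The largest element. -/
noncomputable def top (S : Ch n) : Fin (n + 1) :=
  (S.finset.max' S.nonempty).down

lemma top_mem (S : Ch n) : Mem S (top S) := Finset.max'_mem _ S.nonempty

lemma le_top {S : Ch n} {i : Fin (n + 1)} (h : Mem S i) : i ≤ top S :=
  Finset.le_max' S.finset _ h

lemma top_mono {S T : Ch n} (h : S ≤ T) : top S ≤ top T := le_top (h (top_mem S))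

lemma top_eq {S : Ch n} {i : Fin (n + 1)} (h : Mem S i) (h' : ∀ j, Mem S j → j ≤ i) : top S = i :=
  le_antisymm (h' _ (top_mem S)) (le_top h)

lemma top_chMap (φ : ⦋a⦌ ⟶ ⦋b⦌) (S : Ch a) : top (chMap φ S) = (φ (top S) : Fin (b + 1)) :=
  top_eq ((mem_chMap φ S _).2 ⟨_, top_mem S, rfl⟩) fun j hj => by
    obtain ⟨i, hi, rfl⟩ := (mem_chMap φ S j).1 hj
    exact φ.toOrderHom.monotone (le_top hi)

/-- The last vertex map of a simplex. -/
noncomputable def lvΔ (n : ℕ) : SimplexCategory.sd.{0}.obj ⦋n⦌ ⟶ Δ[n] where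
  app m := ↾fun F : ComposableArrows (Ch n) m.unop.len =>
    SSet.stdSimplex.objMk (n := ⦋n⦌) (m := m)
      ⟨fun i => top (F.obj i), fun _ _ h => top_mono (F.map (homOfLE h)).le⟩
  naturality _ _ _ := rfl

lemma lvΔ_app {m : ℕ} (F : ComposableArrows (Ch n) m) (i : Fin (m + 1)) :
    (lvΔ n).app (op ⦋m⦌) F i = top (F.obj i) := rfl

/-- The last vertex map is natural. -/
lemma lvΔ_natural (φ : ⦋a⦌ ⟶ ⦋b⦌) :
    SimplexCategory.sd.{0}.map φ ≫ lvΔ b = lvΔ a ≫ SSet.stdSimplex.map φ := by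
  refine NatTrans.ext (funext fun m => ?_)
  obtain ⟨m, rfl⟩ : ∃ k, m = op ⦋k⦌ := ⟨_, rfl⟩
  ext F i
  exact congrArg Fin.val (top_chMap φ _)

/-- The initial segments. -/
noncomputable def segHom (n : ℕ) : Fin (n + 1) →o Ch n where
  toFun i :=
    { finset := Finset.univ.filter fun j => j.down ≤ i
      nonempty := ⟨⟨0⟩, by simp⟩
      comparable := fun x y => le_total x.1 y.1 }
  monotone' i i' h x hx := by
    simp only [Finset.mem_filter] at hx ⊢
    exact ⟨hx.1, hx.2.trans h⟩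

lemma mem_segHom (i j : Fin (n + 1)) : Mem (segHom n i) j ↔ j ≤ i := by
  unfold segHom Mem
  show ULift.up j ∈ (Finset.univ.filter fun j : ULift.{0} (Fin (n + 1)) => j.down ≤ i) ↔ _
  simp

lemma top_segHom (i : Fin (n + 1)) : top (segHom n i) = i :=
  top_eq ((mem_segHom i i).2 le_rfl) fun j h => (mem_segHom i j).1 h

lemma segHom_top (S : Ch n) : segHom n (top S) = R n 0 S :=
  ch_ext fun i => by
    rw [mem_segHom, mem_R]
    constructor
    · intro h
      refine ⟨top S, top_mem S, ?_⟩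
      rw [Fin.le_def] at h
      omega
    · rintro ⟨j, hj, h⟩
      have := le_top hj
      rw [Fin.le_def] at this ⊢
      omega

/-- The section of the last vertex map. -/
noncomputable def segΔ (n : ℕ) : Δ[n] ⟶ SimplexCategory.sd.{0}.obj ⦋n⦌ where
  app m := ↾fun α =>
    ((segHom n).monotone.comp (SSet.stdSimplex.asOrderHom α).monotone).functor
  naturality _ _ _ := rfl

lemma segΔ_lvΔ (n : ℕ) : segΔ n ≫ lvΔ n = 𝟙 _ := by
  refine NatTrans.ext (funext fun m => ?_)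
  obtain ⟨m, rfl⟩ : ∃ k, m = op ⦋k⦌ := ⟨_, rfl⟩
  ext F i
  exact congrArg Fin.val (top_segHom _)

lemma nm_R_zero (n : ℕ) : nm (R n 0) = lvΔ n ≫ segΔ n := by
  refine NatTrans.ext (funext fun m => ?_)
  obtain ⟨m, rfl⟩ : ∃ k, m = op ⦋k⦌ := ⟨_, rfl⟩
  ext F
  exact CategoryTheory.Functor.ext (fun i => (segHom_top _).symm) fun _ _ _ => Subsingleton.elim _ _

/-- The natural map `X ⟶ Ex X`, adjoint to the last vertex map. -/
noncomputable def toEx : 𝟭 SSet.{0} ⟶ SSet.ex where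
  app X :=
    { app := fun m => ↾fun x => ULift.up (lvΔ m.unop.len ≫ SSet.yonedaEquiv.symm x)
      naturality := fun m m' φ => by
        ext x
        refine congrArg ULift.up ?_
        show lvΔ m'.unop.len ≫ SSet.yonedaEquiv.symm (X.map φ x)
          = SimplexCategory.sd.map φ.unop ≫ lvΔ m.unop.len ≫ SSet.yonedaEquiv.symm x
        rw [reassoc_of% (lvΔ_natural φ.unop)]
        refine congrArg (lvΔ _ ≫ ·) ?_
        rw [Equiv.symm_apply_eq, ← SSet.yonedaEquiv_naturality, Equiv.apply_symm_apply]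
        rfl }
  naturality X Y f := by
    ext m x
    exact congrArg ULift.up ((congrArg (lvΔ m.unop.len ≫ ·)
      (SSet.yonedaEquiv_symm_comp x f)).symm.trans (Category.assoc _ _ _).symm)

lemma toEx_app (x : X _⦋n⦌) :
    (toEx.app X).app (op ⦋n⦌) x = ULift.up (lvΔ n ≫ SSet.yonedaEquiv.symm x) := rfl

instance mono_toEx (X : SSet.{0}) : Mono (toEx.app X) := by
  have : ∀ m, Mono ((toEx.app X).app m) := fun m => by
    obtain ⟨n, rfl⟩ : ∃ k, m = op ⦋k⦌ := ⟨_, rfl⟩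
    rw [mono_iff_injective]
    intro x y h
    have h1 : lvΔ n ≫ SSet.yonedaEquiv.symm x = lvΔ n ≫ SSet.yonedaEquiv.symm y :=
      congrArg ULift.down h
    have h2 := congrArg (segΔ n ≫ ·) h1
    simp only [reassoc_of% (segΔ_lvΔ n)] at h2
    exact SSet.yonedaEquiv.symm.injective h2
  exact NatTrans.mono_of_mono_app _

lemma mem_range_toEx (x : (SSet.ex.obj X) _⦋n⦌) :
    x ∈ (SSet.Subcomplex.range (toEx.app X)).obj (op ⦋n⦌) ↔ act (R n 0) x = x := by
  constructor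
  · rintro ⟨y, rfl⟩
    refine congrArg ULift.up ?_
    show nm (R n 0) ≫ lvΔ n ≫ SSet.yonedaEquiv.symm y = lvΔ n ≫ SSet.yonedaEquiv.symm y
    rw [nm_R_zero, Category.assoc, reassoc_of% (segΔ_lvΔ n)]
  · intro h
    refine ⟨SSet.yonedaEquiv (segΔ n ≫ x.down), ?_⟩
    rw [toEx_app, Equiv.symm_apply_apply, ← Category.assoc, ← nm_R_zero]
    exact h

end Vale.Agent.P213.Subdiv
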