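import Vale.Agent.P213.Ex.Pairing
import Vale.Agent.P213.Sd2.Cells
import Vale.Agent.P213.WE.KanTarget

/-!
# The last vertex map is a weak equivalence

For `W = Ex X` the last vertex map `sd W ⟶ W` is homotopic to the composite of the counit with
`X ⟶ Ex X`, by an explicit natural formula.
-/

open CategoryTheory MonoidalCategory CartesianMonoidalCategory MonoidalClosed Opposite
open HomotopicalAlgebra Limits
open scoped Simplicial SSet.modelCategoryQuillen

namespace Vale.Agent.P213.Subdiv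

attribute [local instance 2000] FunctorToTypes.monoidalClosed

variable {n a b : ℕ} {X Y K : SSet.{0}}

/-- The tops of a chain of subsets, as a monotone map. -/
noncomputable def tops {k : ℕ} (F : ComposableArrows (Ch n) k) :
    ULift.{0} (Fin (k + 1)) →o ULift.{0} (Fin (n + 1)) where
  toFun i := ⟨top (F.obj i.down)⟩
  monotone' _ _ h := top_mono (F.map (homOfLE h)).le

lemma mem_map_tops {k : ℕ} (F : ComposableArrows (Ch n) k) (T : Ch k) (i : Fin (n + 1)) :
    Mem (PartialOrder.NonemptyFiniteChains.map T (tops F)) i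
      ↔ ∃ j, Mem T j ∧ top (F.obj j) = i := by
  refine (PartialOrder.NonemptyFiniteChains.mem_map_iff T _ _).trans ?_
  constructor
  · rintro ⟨⟨j⟩, hj, e⟩
    exact ⟨j, hj, congrArg ULift.down e⟩
  · rintro ⟨j, hj, rfl⟩
    exact ⟨⟨j⟩, hj, rfl⟩

/-- The homotopy formula. -/
noncomputable def psiHom {k : ℕ} (F : ComposableArrows (Ch n) k) (g : Fin (k + 1) →o Fin 2) :
    Ch k →o Ch n where
  toFun T :=
    if g (top T) = 0 then PartialOrder.NonemptyFiniteChains.map T (tops F)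
    else F.obj (top T)
  monotone' T T' h := by
    show (if g (top T) = 0 then _ else _) ≤ if g (top T') = 0 then _ else _
    have hg := g.monotone (top_mono h)
    by_cases h0 : g (top T) = 0
    · rw [if_pos h0]
      by_cases h1 : g (top T') = 0
      · rw [if_pos h1]
        exact (PartialOrder.NonemptyFiniteChains.orderHomMap (tops F)).monotone h
      · rw [if_neg h1]
        intro ⟨i⟩ hi
        obtain ⟨j, hj, rfl⟩ := (mem_map_tops F T i).1 hi
        exact (F.map (homOfLE (show j ≤ top T' from le_top (h hj)))).le (top_mem _)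
    · have h1 : g (top T') ≠ 0 := fun e => h0 (Fin.le_zero_iff.1 (e ▸ hg))
      rw [if_neg h0, if_neg h1]
      exact (F.map (homOfLE (top_mono h))).le

lemma psiHom_apply {k : ℕ} (F : ComposableArrows (Ch n) k) (g : Fin (k + 1) →o Fin 2) (T : Ch k) :
    psiHom F g T = if g (top T) = 0 then PartialOrder.NonemptyFiniteChains.map T (tops F)
      else F.obj (top T) := rfl

lemma psiHom_natural {k l : ℕ} (F : ComposableArrows (Ch n) k) (g : Fin (k + 1) →o Fin 2)
    (ψ : ⦋l⦌ ⟶ ⦋k⦌) :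
    psiHom (F.whiskerLeft (SimplexCategory.toCat.map ψ).toFunctor) (g.comp ψ.toOrderHom)
      = (psiHom F g).comp (chMap ψ) := by
  refine OrderHom.ext _ _ (funext fun T => ?_)
  show psiHom _ _ T = psiHom F g (chMap ψ T)
  simp only [psiHom_apply, top_chMap]
  show (if g (ψ (top T)) = 0 then _ else _) = _
  split_ifs with h
  · refine ch_ext fun i => ?_
    rw [mem_map_tops, mem_map_tops]
    simp only [mem_chMap]
    constructor
    · rintro ⟨j, hj, e⟩
      exact ⟨ψ j, ⟨j, hj, rfl⟩, e⟩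
    · rintro ⟨_, ⟨j, hj, rfl⟩, e⟩
      exact ⟨j, hj, e⟩
  · rfl

lemma psiHom_natural' {k : ℕ} (F : ComposableArrows (Ch a) k) (g : Fin (k + 1) →o Fin 2)
    (φ : ⦋a⦌ ⟶ ⦋b⦌) :
    psiHom (((chMap φ).monotone.functor.mapComposableArrows k).obj F) g
      = (chMap φ).comp (psiHom F g) := by
  refine OrderHom.ext _ _ (funext fun T => ?_)
  show psiHom _ g T = chMap φ (psiHom F g T)
  simp only [psiHom_apply]
  split_ifs with h
  · refine ch_ext fun i => ?_
    simp only [mem_chMap, mem_map_tops]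
    constructor
    · rintro ⟨j, hj, e⟩
      exact ⟨_, ⟨j, hj, rfl⟩, (top_chMap φ (F.obj j)).symm.trans e⟩
    · rintro ⟨_, ⟨j, hj, rfl⟩, e⟩
      exact ⟨j, hj, (top_chMap φ (F.obj j)).trans e⟩
  · rfl

/-- The homotopy on a subdivided simplex, with values in `Ex`. -/
noncomputable def psi (n : ℕ) :
    (Δ[1] : SSet.{0}) ⊗ SimplexCategory.sd.{0}.obj ⦋n⦌
      ⟶ SSet.ex.obj (SimplexCategory.sd.{0}.obj ⦋n⦌) where
  app m := ↾fun p => ULift.up (nm (psiHom p.2 (SSet.stdSimplex.asOrderHom p.1)))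
  naturality m m' φ := by
    ext p
    refine congrArg ULift.up ?_
    exact (congrArg nm (psiHom_natural p.2 (SSet.stdSimplex.asOrderHom p.1) φ.unop)).trans
      (nm_comp _ _)

lemma psi_natural (φ : ⦋a⦌ ⟶ ⦋b⦌) :
    (Δ[1] : SSet.{0}) ◁ SimplexCategory.sd.{0}.map φ ≫ psi b
      = psi a ≫ SSet.ex.map (SimplexCategory.sd.{0}.map φ) := by
  ext m p
  refine congrArg ULift.up ?_
  exact (congrArg nm (psiHom_natural' p.2 (SSet.stdSimplex.asOrderHom p.1) φ)).trans (nm_comp _ _)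

lemma psiHom_zero {k : ℕ} (F : ComposableArrows (Ch n) k) (g : Fin (k + 1) →o Fin 2)
    (hg : ∀ i, g i = 0) :
    psiHom F g = chMap (SimplexCategory.Hom.mk
      (a := ⦋k⦌) (b := ⦋n⦌) ⟨fun i => top (F.obj i), fun _ _ h => top_mono (F.map (homOfLE h)).le⟩) := by
  refine OrderHom.ext _ _ (funext fun T => ch_ext fun i => ?_)
  show Mem (psiHom F g T) i ↔ Mem (chMap _ T) i
  rw [psiHom_apply, if_pos (hg _), mem_map_tops, mem_chMap]
  rfl

lemma psiHom_one {k : ℕ} (F : ComposableArrows (Ch n) k) (g : Fin (k + 1) →o Fin 2)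
    (hg : ∀ i, g i = 1) (T : Ch k) : psiHom F g T = F.obj (top T) := by
  rw [psiHom_apply, if_neg (by rw [hg]; exact Fin.zero_ne_one.symm)]

lemma psi_zero (n : ℕ) :
    (SSet.ι₀ : SimplexCategory.sd.{0}.obj ⦋n⦌ ⟶ _) ≫ (β_ _ _).hom ≫ psi n
      = lvΔ n ≫ SSet.yonedaEquiv.symm
          (ULift.up (𝟙 (SimplexCategory.sd.{0}.obj ⦋n⦌))) := by
  ext m F
  obtain ⟨k, rfl⟩ : ∃ k, m = op ⦋k⦌ := ⟨_, rfl⟩
  refine congrArg ULift.up ?_
  refine Eq.trans ?_ (Category.comp_id _).symm
  exact congrArg nm (psiHom_zero F _ fun _ => rfl)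

lemma psi_one (n : ℕ) :
    (SSet.ι₁ : SimplexCategory.sd.{0}.obj ⦋n⦌ ⟶ _) ≫ (β_ _ _).hom ≫ psi n
      = toEx.app (SimplexCategory.sd.{0}.obj ⦋n⦌) := by
  ext m F
  obtain ⟨k, rfl⟩ : ∃ k, m = op ⦋k⦌ := ⟨_, rfl⟩
  refine congrArg ULift.up ?_
  refine NatTrans.ext (funext fun m' => ?_)
  ext G
  refine CategoryTheory.Functor.ext (fun i => ?_) fun _ _ _ => Subsingleton.elim _ _
  exact psiHom_one F _ (fun _ => rfl) (G.obj i)

/-- The last vertex map, adjunct to `X ⟶ Ex X`. -/
noncomputable def lvMap (X : SSet.{0}) : SSet.sd.obj X ⟶ X :=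
  (SSet.sdExAdjunction.homEquiv X X).symm (toEx.app X)

lemma toEx_naturality (f : X ⟶ Y) :
    f ≫ (toEx.app Y : Y ⟶ SSet.ex.obj Y) = (toEx.app X : X ⟶ SSet.ex.obj X) ≫ SSet.ex.map f :=
  toEx.naturality f

lemma lvMap_naturality (f : X ⟶ Y) : SSet.sd.map f ≫ lvMap Y = lvMap X ≫ f :=
  (SSet.sdExAdjunction.homEquiv_naturality_left_symm f (toEx.app Y)).symm.trans
    ((congrArg (SSet.sdExAdjunction.homEquiv X Y).symm (toEx_naturality f)).trans
      (SSet.sdExAdjunction.homEquiv_naturality_right_symm (toEx.app X) f))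

/-- The last vertex map, natural in the simplicial set. -/
noncomputable def lv : SSet.sd.{0} ⟶ 𝟭 SSet.{0} where
  app := lvMap
  naturality _ _ f := lvMap_naturality f

lemma homEquiv_lvMap (X : SSet.{0}) :
    SSet.sdExAdjunction.homEquiv X X (lvMap X) = (toEx.app X : X ⟶ SSet.ex.obj X) :=
  Equiv.apply_symm_apply _ _

lemma sdCell_lv (x : X _⦋n⦌) : Sd2.sdCell x ≫ lvMap X = lvΔ n ≫ SSet.yonedaEquiv.symm x := by
  have h := Sd2.homEquiv_app (lvMap X) x
  rw [homEquiv_lvMap] at h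
  exact (congrArg ULift.down h).symm

lemma sdCell_counit (x : (SSet.ex.obj X) _⦋n⦌) :
    Sd2.sdCell x ≫ (SSet.sdExAdjunction.homEquiv (SSet.ex.obj X) X).symm (𝟙 _) = x.down := by
  have h := Sd2.homEquiv_app ((SSet.sdExAdjunction.homEquiv (SSet.ex.obj X) X).symm (𝟙 _)) x
  rw [Equiv.apply_symm_apply] at h
  exact (congrArg ULift.down h).symm

/-- The last vertex map of `Ex X` is homotopic to the counit followed by `X ⟶ Ex X`. -/
theorem htpc_lv_counit (X : SSet.{0}) :
    Htpc (lvMap (SSet.ex.obj X))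
      ((SSet.sdExAdjunction.homEquiv (SSet.ex.obj X) X).symm (𝟙 _) ≫ (toEx.app X : X ⟶ SSet.ex.obj X)) := by
  let c : ∀ m : SimplexCategory, (SSet.ex.obj X).obj (op m) →
      (SimplexCategory.sd.{0}.obj m ⟶ (ihom (Δ[1] : SSet.{0})).obj (SSet.ex.obj X)) :=
    fun m x => curry (psi m.len ≫ SSet.ex.map x.down)
  have hc : ∀ (m p : SimplexCategory) (φ : m ⟶ p) (x : (SSet.ex.obj X).obj (op p)),
      SimplexCategory.sd.map φ ≫ c p x = c m ((SSet.ex.obj X).map φ.op x) := fun m p φ x => by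
    show SimplexCategory.sd.map φ ≫ curry (psi p.len ≫ SSet.ex.map x.down)
      = curry (psi m.len ≫ SSet.ex.map (SimplexCategory.sd.map φ ≫ x.down))
    rw [← curry_natural_left, Functor.map_comp]
    exact congrArg curry ((reassoc_of% (psi_natural (a := m.len) (b := p.len) φ)) _)
  refine Htpc.mk ((β_ _ _).hom ≫ uncurry (Sd2.sdDesc c hc)) ?_ ?_
  · refine Sd2.sd_hom_ext fun m x => ?_
    rw [← SSet.ι₀_comp_assoc, BraidedCategory.braiding_naturality_left_assoc,
      ← uncurry_natural_left, Sd2.sdCell_desc, uncurry_curry]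
    show SSet.ι₀ ≫ (β_ _ _).hom ≫ psi m.len ≫ _ = _
    rw [reassoc_of% (psi_zero m.len)]
    refine Eq.trans (congrArg (lvΔ m.len ≫ ·) (SSet.yonedaEquiv_symm_comp _ _)) ?_
    refine Eq.trans (congrArg (fun z => lvΔ m.len ≫ SSet.yonedaEquiv.symm z) ?_) (sdCell_lv x).symm
    exact congrArg ULift.up (Category.id_comp x.down)
  · refine Sd2.sd_hom_ext fun m x => ?_
    rw [← SSet.ι₁_comp_assoc, BraidedCategory.braiding_naturality_left_assoc,
      ← uncurry_natural_left, Sd2.sdCell_desc, uncurry_curry]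
    show SSet.ι₁ ≫ (β_ _ _).hom ≫ psi m.len ≫ _ = _
    rw [reassoc_of% (psi_one m.len), reassoc_of% (sdCell_counit x)]
    exact (toEx_naturality x.down).symm

/-- Homotopic maps out of `sd X` have homotopic adjuncts. -/
lemma htpc_adjunct {f g : SSet.sd.obj X ⟶ K} (H : Htpc f g) (r : SSet.ex.obj K ⟶ Y) :
    Htpc (SSet.sdExAdjunction.homEquiv X K f ≫ r) (SSet.sdExAdjunction.homEquiv X K g ≫ r) := by
  obtain ⟨h, h₀, h₁⟩ := H.exists_map
  let G : SSet.sd.obj (X ⊗ (Δ[1] : SSet.{0})) ⟶ K :=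
    lift (SSet.sd.map (fst X Δ[1])) (SSet.sd.map (snd X Δ[1]) ≫ lvMap Δ[1]) ≫ h
  have hend : ∀ (ι : X ⟶ X ⊗ (Δ[1] : SSet.{0})) (z : (Δ[1] : SSet.{0}) _⦋0⦌),
      ι = lift (𝟙 X) (SSet.const z) →
      SSet.sd.map ι ≫ lift (SSet.sd.map (fst X Δ[1])) (SSet.sd.map (snd X Δ[1]) ≫ lvMap Δ[1])
        = lift (𝟙 _) (SSet.const z) := by
    rintro ι z rfl
    apply CartesianMonoidalCategory.hom_ext
    · rw [Category.assoc, lift_fst, lift_fst, ← Functor.map_comp, lift_fst, CategoryTheory.Functor.map_id]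
    · rw [Category.assoc, lift_snd, lift_snd, ← Functor.map_comp_assoc, lift_snd]
      exact (lvMap_naturality _).trans (by simp)
  refine Htpc.mk (SSet.sdExAdjunction.homEquiv _ K G ≫ r) ?_ ?_
  · rw [← Category.assoc, ← Adjunction.homEquiv_naturality_left, ← Category.assoc,
      hend SSet.ι₀ _ rfl, ← h₀]
    rfl
  · rw [← Category.assoc, ← Adjunction.homEquiv_naturality_left, ← Category.assoc,
      hend SSet.ι₁ _ rfl, ← h₁]
    rfl

lemma htpcEqv_adjunct {f g : SSet.sd.obj X ⟶ K} (H : HtpcEqv f g) (r : SSet.ex.obj K ⟶ Y) :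
    HtpcEqv (SSet.sdExAdjunction.homEquiv X K f ≫ r) (SSet.sdExAdjunction.homEquiv X K g ≫ r) := by
  induction H with
  | rel _ _ h => exact .of_htpc (htpc_adjunct h r)
  | refl _ => exact .refl _
  | symm _ _ _ ih => exact ih.symm
  | trans _ _ _ _ _ ih₁ ih₂ => exact ih₁.trans ih₂

/-- **The last vertex map is a weak equivalence.** -/
theorem isWE_lvMap (X : SSet.{0}) : IsWE (lvMap X) := by
  intro K hK
  have : HasLiftingProperty (toEx.app K) (terminal.from K) :=
    anodyne_toEx K _ (HomotopicalAlgebra.mem_fibrations _)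
  have sq : CommSq (𝟙 K) (toEx.app K) (terminal.from K) (terminal.from _) := ⟨by simp⟩
  let r : SSet.ex.obj K ⟶ K := sq.lift
  have hr : toEx.app K ≫ r = 𝟙 K := sq.fac_left
  constructor
  · intro f
    refine ⟨SSet.sdExAdjunction.homEquiv X K f ≫ r, ?_⟩
    have e := ((HtpcEqv.of_htpc (htpc_lv_counit K)).postcomp r).precomp
      (SSet.sd.map (SSet.sdExAdjunction.homEquiv X K f))
    rw [Category.assoc, hr, Category.comp_id, reassoc_of% (lvMap_naturality _)] at e
    refine e.trans (.of_eq ?_)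
    rw [← Adjunction.homEquiv_naturality_left_symm, Category.comp_id, Equiv.symm_apply_apply]
  · intro g g' H
    have key : ∀ g : X ⟶ K,
        SSet.sdExAdjunction.homEquiv X K (lvMap X ≫ g) ≫ r = g := fun g => by
      rw [Adjunction.homEquiv_naturality_right, homEquiv_lvMap, ← toEx_naturality, Category.assoc,
        hr]
      exact Category.comp_id g
    have := htpcEqv_adjunct (f := lvMap X ≫ g) (g := lvMap X ≫ g') H r
    rwa [key, key] at this

/-- `X ⟶ Ex X` is a weak equivalence. -/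
theorem isWE_toEx (X : SSet.{0}) : IsWE (toEx.app X) := isWE_of_anodyne (anodyne_toEx X)

theorem lastVertexGoal : LastVertexGoal :=
  ⟨lv, isWE_lvMap, fun X => by
    show IsWE (SSet.sdExAdjunction.homEquiv X X (lvMap X))
    rw [homEquiv_lvMap]
    exact isWE_toEx X⟩

end Vale.Agent.P213.Subdiv
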