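import Vale.Agent.P213.Ex.LastVertex
import Mathlib.AlgebraicTopology.SimplicialSet.AnodyneExtensions.Basic

/-!
# `X ⟶ Ex X` is a strong anodyne extension

The degree of a simplex `x` of `Ex X` is the least `k` with `x = act (R n k) x`; it is `0` exactly
on `X`. A nondegenerate simplex of degree `k` is paired with `act (J n k) x`, of which it is the
face omitting `k + 1`.
-/

open CategoryTheory Opposite
open scoped Simplicial

namespace Vale.Agent.P213.Subdiv

variable {n : ℕ} {X : SSet.{0}}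

lemma exists_fill (x : (SSet.ex.obj X) _⦋n⦌) : ∃ k, act (R n k) x = x :=
  ⟨n, by rw [R_last, act_id]⟩

open scoped Classical in
/-- The degree of a simplex of `Ex X`. -/
noncomputable def deg (x : (SSet.ex.obj X) _⦋n⦌) : ℕ := Nat.find (exists_fill x)

open scoped Classical in
lemma deg_spec (x : (SSet.ex.obj X) _⦋n⦌) : act (R n (deg x)) x = x :=
  Nat.find_spec (exists_fill x)

open scoped Classical in
lemma deg_le_of {x : (SSet.ex.obj X) _⦋n⦌} {k : ℕ} (h : act (R n k) x = x) : deg x ≤ k :=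
  Nat.find_le h

lemma deg_le (x : (SSet.ex.obj X) _⦋n⦌) : deg x ≤ n :=
  deg_le_of (by rw [R_last, act_id])

lemma deg_pos {x : (SSet.ex.obj X) _⦋n⦌}
    (h : x ∉ (SSet.Subcomplex.range (toEx.app X)).obj (op ⦋n⦌)) : 1 ≤ deg x := by
  by_contra h0
  obtain e : deg x = 0 := by omega
  exact h ((mem_range_toEx x).2 (e ▸ deg_spec x))

lemma notMem_of_deg_pos {x : (SSet.ex.obj X) _⦋n⦌} (h : 1 ≤ deg x) :
    x ∉ (SSet.Subcomplex.range (toEx.app X)).obj (op ⦋n⦌) := fun h' => by
  have := deg_le_of ((mem_range_toEx x).1 h')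
  omega

/-- The filling simplex. -/
noncomputable def fill (x : (SSet.ex.obj X) _⦋n⦌) : (SSet.ex.obj X) _⦋n + 1⦌ :=
  act (J n (deg x)) x

/-- Simplices of the form `fill x`. -/
def IsI (x : (SSet.ex.obj X) _⦋n⦌) : Prop := deg x < n ∧ act (E n (deg x)) x = x

/-- The index of the face `x` of `fill x`. -/
noncomputable def idx (x : (SSet.ex.obj X) _⦋n⦌) : Fin (n + 2) :=
  ⟨deg x + 1, by have := deg_le x; omega⟩

lemma δ_fill (x : (SSet.ex.obj X) _⦋n⦌) : (SSet.ex.obj X).δ (idx x) (fill x) = x := by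
  rw [δ_eq_act, fill, act_act, idx, J_comp_δ_succ (deg_le x), deg_spec]

lemma deg_fill (x : (SSet.ex.obj X) _⦋n⦌) : deg (fill x) = deg x := by
  refine le_antisymm (deg_le_of (by rw [fill, act_act, J_comp_R])) ?_
  by_contra hl
  have h1 : act (chMap (SimplexCategory.δ (idx x))) (fill x) = x := δ_fill x
  rw [← deg_spec (fill x), act_act] at h1
  have h2 := congrArg (act (R n (deg (fill x)))) h1
  rw [act_act, R_δ_R _ (by simp only [idx]; omega), h1] at h2
  have := deg_le_of h2.symm
  omega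

lemma isI_fill (x : (SSet.ex.obj X) _⦋n⦌) : IsI (fill x) := by
  have hk := deg_le x
  refine ⟨by rw [deg_fill]; omega, ?_⟩
  rw [deg_fill, E_eq hk, ← act_act]
  exact congrArg (act (J n (deg x))) (δ_fill x)

lemma δ_σ_not_nonDegenerate {w : (SSet.ex.obj X) _⦋n⦌} (i : Fin (n + 1)) (c : Fin (n + 2))
    (h : c ≠ i.castSucc) (h' : c ≠ i.succ) :
    (SSet.ex.obj X).δ c ((SSet.ex.obj X).σ i w) ∉ (SSet.ex.obj X).nonDegenerate n := by
  intro hn
  have := SSet.mono_of_nonDegenerate _ ⟨_, hn⟩ (SimplexCategory.δ c ≫ SimplexCategory.σ i) w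
    (by rw [op_comp, Functor.map_comp_apply]; rfl)
  obtain ⟨p, hp⟩ := Fin.exists_succAbove_eq h.symm
  obtain ⟨q, hq⟩ := Fin.exists_succAbove_eq h'.symm
  have e : p = q := SimplexCategory.mono_iff_injective.1 this (by
    show i.predAbove (c.succAbove p) = i.predAbove (c.succAbove q)
    rw [hp, hq, Fin.predAbove_castSucc_self, Fin.predAbove_succ_self])
  subst e
  exact (Fin.castSucc_lt_succ).ne (hp.symm.trans hq)

lemma fill_nonDegenerate (x : (SSet.ex.obj X) _⦋n⦌) (hx : x ∈ (SSet.ex.obj X).nonDegenerate n)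
    (hpos : 1 ≤ deg x) (hII : ¬IsI x) : fill x ∈ (SSet.ex.obj X).nonDegenerate (n + 1) := by
  rw [SSet.mem_nonDegenerate_iff_notMem_degenerate, SSet.degenerate_eq_iUnion_range_σ,
    Set.mem_iUnion]
  rintro ⟨i, w, hw⟩
  have hk := deg_le x
  have hx' : (SSet.ex.obj X).δ (idx x) ((SSet.ex.obj X).σ i w) = x := by rw [hw, δ_fill]
  by_cases h1 : idx x = i.succ
  · have hi : i.1 = deg x := by
      have := congrArg Fin.val h1
      simp only [idx, Fin.val_succ] at this
      omega
    rw [h1, SSet.δ_comp_σ_succ_apply] at hx'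
    have h2 : (SSet.ex.obj X).δ i.castSucc (fill x) = x := by
      rw [← hw, SSet.δ_comp_σ_self_apply, hx']
    have hi' : i.castSucc = ⟨deg x, by omega⟩ := Fin.ext hi
    rw [hi', δ_eq_act, fill, act_act, J_comp_δ_self hk hpos] at h2
    have := deg_le_of h2
    omega
  by_cases h2 : idx x = i.castSucc
  · have hi : i.1 = deg x + 1 := by
      have := congrArg Fin.val h2
      simp only [idx, Fin.val_castSucc] at this
      omega
    rw [h2, SSet.δ_comp_σ_self_apply] at hx'
    have h3 : act ((J n (deg x)).comp (chMap (SimplexCategory.δ i.succ))) x = x := by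
      rw [← act_act, ← fill, ← δ_eq_act, ← hw, SSet.δ_comp_σ_succ_apply, hx']
    refine hII ⟨by omega, ?_⟩
    have h4 := congrArg (act (E n (deg x))) h3
    rw [act_act, J_δ_E i.succ (by simp only [Fin.val_succ]; omega), h3] at h4
    exact h4.symm
  · exact δ_σ_not_nonDegenerate i _ h2 h1 (hx'.symm ▸ hx)

/-- Every simplex of the form `fill x` comes from a type II simplex. -/
lemma exists_of_isI (y : (SSet.ex.obj X) _⦋n + 1⦌)
    (hy : y ∈ (SSet.ex.obj X).nonDegenerate (n + 1)) (hpos : 1 ≤ deg y) (hI : IsI y) :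
    ∃ x : (SSet.ex.obj X) _⦋n⦌, x ∈ (SSet.ex.obj X).nonDegenerate n ∧ 1 ≤ deg x ∧ ¬IsI x
      ∧ fill x = y := by
  have hkn : deg y ≤ n := by have := hI.1; omega
  set x := act (chMap (SimplexCategory.δ (⟨deg y + 1, by omega⟩ : Fin (n + 2)))) y with hx
  have hJ : act (J n (deg y)) x = y := by
    rw [hx, act_act, ← E_eq hkn]
    exact hI.2
  have hRx : act (R n (deg y)) x = x := by
    rw [← J_comp_δ_succ hkn, ← act_act, hJ]
  have hdeg : deg x = deg y := by
    refine le_antisymm (deg_le_of hRx) ?_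
    by_contra hl
    have h1 : act (R (n + 1) (deg x)) y = y := by
      conv_lhs => rw [← hJ]
      rw [act_act, ← R_comp_J (by omega) hkn, ← act_act, deg_spec, hJ]
    have := deg_le_of h1
    omega
  have hfill : fill x = y := by rw [fill, hdeg, hJ]
  refine ⟨x, ?_, by omega, ?_, hfill⟩
  · obtain _ | m := n
    · simp
    rw [SSet.mem_nonDegenerate_iff_notMem_degenerate, SSet.degenerate_eq_iUnion_range_σ,
      Set.mem_iUnion]
    rintro ⟨i, w, hw⟩
    apply hy
    rw [← hJ, ← hw, SSet.degenerate_eq_iUnion_range_σ, Set.mem_iUnion]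
    show ∃ j, act (J (m + 1) (deg y)) (act (chMap (SimplexCategory.σ i)) w)
      ∈ Set.range ((SSet.ex.obj X).σ j)
    rw [act_act]
    by_cases hi : deg y ≤ i.1
    · refine ⟨i.succ, act (J m (deg y)) w, ?_⟩
      rw [σ_comp_J_of_le i hi, ← act_act]
      rfl
    · refine ⟨⟨i.1, by omega⟩, act (J m (deg y - 1)) w, ?_⟩
      rw [σ_comp_J_of_lt i (by omega) hkn, ← act_act]
      rfl
  · rintro ⟨hlt, hE⟩
    rw [hdeg] at hlt hE
    obtain _ | m := n
    · omega
    apply hy
    rw [SSet.degenerate_eq_iUnion_range_σ, Set.mem_iUnion]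
    rw [E_eq (show deg y ≤ m by omega), ← act_act] at hE
    refine ⟨⟨deg y + 1, by omega⟩,
      act (J m (deg y)) (act (chMap (SimplexCategory.δ
        (⟨deg y + 1, by omega⟩ : Fin (m + 2)))) x), ?_⟩
    refine Eq.trans ?_ hJ
    conv_rhs => rw [← hE, act_act, J_comp_J (by omega), ← act_act]
    rfl

lemma δ_fill_face (x : (SSet.ex.obj X) _⦋n⦌) (i : Fin (n + 2)) (hi : i ≠ idx x) :
    deg ((SSet.ex.obj X).δ i (fill x)) < deg x ∨ IsI ((SSet.ex.obj X).δ i (fill x)) ∨ deg x = 0 := by
  have hk := deg_le x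
  obtain h0 | hpos := Nat.eq_zero_or_pos (deg x)
  · exact Or.inr (Or.inr h0)
  rw [δ_eq_act, fill, act_act]
  set z := act ((J n (deg x)).comp (chMap (SimplexCategory.δ i))) x with hz
  by_cases h : i.1 ≤ deg x
  · refine Or.inl ?_
    have : act (R n (deg x - 1)) z = z := by rw [hz, act_act, J_δ_R_of_le i h]
    have := deg_le_of this
    omega
  · have h2 : deg x + 2 ≤ i.1 := by
      have : i.1 ≠ deg x + 1 := fun e => hi (Fin.ext e)
      omega
    have h3 : act (R n (deg x)) z = z := by rw [hz, act_act, J_δ_R_of_ge i h2]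
    obtain e | e := eq_or_lt_of_le (deg_le_of h3)
    · exact Or.inr (Or.inl ⟨by omega, by rw [e, hz, act_act, J_δ_E i h2]⟩)
    · exact Or.inl e

variable (X)

/-- The subcomplex `X` of `Ex X`. -/
noncomputable abbrev base : (SSet.ex.obj X).Subcomplex := SSet.Subcomplex.range (toEx.app X)

/-- The type I simplices. -/
def setI : Set (base X).N := {s | IsI s.simplex}

/-- The type II simplices. -/
def setII : Set (base X).N := {s | ¬IsI s.simplex}

variable {X}

/-- The type I simplex paired with a type II simplex. -/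
noncomputable def pFun (s : setII X) : setI X :=
  ⟨SSet.Subcomplex.N.mk (fill s.1.simplex)
      (fill_nonDegenerate _ s.1.nonDegenerate (deg_pos s.1.notMem) s.2)
      (notMem_of_deg_pos (by rw [deg_fill]; exact deg_pos s.1.notMem)),
    isI_fill _⟩

lemma pFun_bijective : Function.Bijective (pFun (X := X)) := by
  refine ⟨fun s t h => ?_, fun t => ?_⟩
  · obtain ⟨s, hs⟩ := s
    obtain ⟨t, ht⟩ := t
    obtain ⟨m, x, hx, hxA, rfl⟩ := s.mk_surjective
    obtain ⟨m', x', hx', hxA', rfl⟩ := t.mk_surjective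
    have h' : (SSet.S.mk (fill x)) = SSet.S.mk (fill x') :=
      congrArg (fun u : setI X => SSet.S.mk u.1.simplex) h
    obtain rfl : m = m' := by
      have := congrArg SSet.S.dim h'
      simpa using this
    have e : fill x = fill x' := by simpa using h'
    have ed : deg x = deg x' := by rw [← deg_fill x, e, deg_fill x']
    obtain rfl : x = x' := by
      rw [← δ_fill x, e, show idx x = idx x' from Fin.ext (congrArg (· + 1) ed), δ_fill]
    rfl
  · obtain ⟨t, ht⟩ := t
    obtain ⟨m, y, hy, hyA, rfl⟩ := t.mk_surjective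
    have ht' : IsI y := ht
    obtain _ | m := m
    · exact absurd ht'.1 (by omega)
    obtain ⟨x, hx, hpos, hII, rfl⟩ := exists_of_isI y hy (deg_pos hyA) ht'
    exact ⟨⟨SSet.Subcomplex.N.mk x hx (notMem_of_deg_pos hpos), hII⟩, rfl⟩

/-- The pairing of the simplices of `Ex X` not in `X`. -/
noncomputable def pairing (X : SSet.{0}) : (base X).Pairing where
  I := setI X
  II := setII X
  inter := Set.eq_empty_iff_forall_notMem.2 fun _ h => h.2 h.1
  union := Set.eq_univ_iff_forall.2 fun s => em (IsI s.simplex)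
  p := Equiv.ofBijective pFun pFun_bijective

lemma pairing_p_apply (s : setII X) : (pairing X).p s = pFun s := rfl

instance pairing_isRegular (X : SSet.{0}) : (pairing X).IsRegular where
  isUniquelyCodimOneFace := by
    rintro ⟨s, hs⟩
    obtain ⟨m, x, hx, hxA, rfl⟩ := s.mk_surjective
    have hII : ¬IsI x := hs
    show SSet.S.IsUniquelyCodimOneFace (SSet.S.mk x) (SSet.S.mk (fill x))
    rw [SSet.S.IsUniquelyCodimOneFace.iff]
    refine ⟨idx x, δ_fill x, fun i hi => ?_⟩
    by_contra hne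
    rcases δ_fill_face x i hne with h | h | h
    · rw [hi] at h
      omega
    · rw [hi] at h
      exact hII h
    · have := deg_pos hxA
      omega
  wf := by
    refine Subrelation.wf (r := InvImage (Prod.Lex (· < ·) (· < ·))
      fun s : setII X => (s.1.dim, deg s.1.simplex)) ?_
      (InvImage.wf _ (WellFounded.prod_lex wellFounded_lt wellFounded_lt))
    rintro ⟨s, hs⟩ ⟨t, ht⟩ ⟨hne, hlt⟩
    obtain ⟨m, x, hx, hxA, rfl⟩ := s.mk_surjective
    obtain ⟨m', x', hx', hxA', rfl⟩ := t.mk_surjective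
    have hlt' := SSet.Subcomplex.N.lt_iff.1 hlt
    have hd : m < m' + 1 := SSet.N.dim_lt_of_lt hlt'
    obtain hm | rfl := (Nat.le_of_lt_succ hd).lt_or_eq
    · exact Prod.Lex.left _ _ hm
    refine Prod.Lex.right _ ?_
    obtain ⟨f, hf, e⟩ := SSet.N.le_iff_exists_mono.1 hlt'.le
    let g : ⦋m⦌ ⟶ ⦋m + 1⦌ := f
    have hg : Mono g := hf
    have eg : (SSet.ex.obj X).map g.op (fill x') = x := e
    obtain ⟨i, hi'⟩ := SimplexCategory.eq_δ_of_mono g
    rw [hi'] at eg
    have e' : (SSet.ex.obj X).δ i (fill x') = x := eg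
    by_cases hi : i = idx x'
    · subst hi
      rw [δ_fill] at e'
      subst e'
      exact absurd rfl hne
    show deg x < deg x'
    rcases δ_fill_face x' i hi with h | h | h
    · rwa [e'] at h
    · rw [e'] at h
      exact absurd h hs
    · have := deg_pos hxA'
      omega

theorem strongAnodyne_toEx (X : SSet.{0}) :
    SSet.strongAnodyneExtensions (toEx.app X) :=
  ⟨mono_toEx X, pairing X, inferInstance⟩

/-- **`X ⟶ Ex X` is anodyne.** -/
theorem anodyne_toEx (X : SSet.{0}) : SSet.anodyneExtensions (toEx.app X) :=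
  SSet.strongAnodyneExtensions_le_anodyneExtensions _ (strongAnodyne_toEx X)

end Vale.Agent.P213.Subdiv
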